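import Vale.Agent.P015.Cross
import Vale.Agent.P015.Lattice
import Vale.Agent.P015.Cover
import Vale.Agent.P015.Piece
import Vale.Agent.P015.Primes
import Vale.Agent.P015.Final
import Vale.Agent.P015.Enr
import Vale.Agent.P015.Main
import Vale.Agent.P015.Param
import Vale.Agent.P015.Decr
import Vale.Agent.P015.Test

/-! The Gaussian moat problem: all components of `G_D` are finite, of uniformly bounded size. -/

namespace Vale.Agent.Results.P015.Moat

open Vale.Agent.P015

theorem result (D : ℝ) :
    (∃ B : ℕ, ∀ c : (moatGraph D).ConnectedComponent, c.supp.Finite ∧ c.supp.ncard ≤ B) ∧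
    ¬ ∃ z : ℕ → GaussianInt, Function.Injective z ∧ (∀ n, Irreducible (z n)) ∧
      ∀ n, gdist (z (n + 1)) (z n) ≤ D :=
  final_of (noPath_of (enr_of (piece_of (cover_of cross) lattice)) test decr param primes) D

end Vale.Agent.Results.P015.Moat
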